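import Crest.Agent.N111.I.Rel
import Crest.Agent.N111.Lib.POVM
import Crest.Agent.N111.Lib.MClass
import Crest.Agent.N111.Lib.Geo

-- ▼ part N111/I/AmenA
section

/-!
# Row 111: `AmenStmt`, operator part.  An amenability datum on flags turns a covariant POVM into
a positive map `N → Q`; the trace of `Q` then contradicts ping-pong (helper60)
-/

set_option autoImplicit false
set_option linter.unusedSectionVars false

namespace Crest.Agent.N111.AmenAux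

open MeasureTheory Topology Filter Matrix
open scoped InnerProductSpace ComplexOrder

variable {K : Type} [NormedAddCommGroup K] [InnerProductSpace ℂ K] [CompleteSpace K]

/-- the quadratic form -/
noncomputable def qq (η : K) (T : K →L[ℂ] K) : ℝ := (⟪η, T η⟫_ℂ).re

lemma inner_nonneg {T : K →L[ℂ] K} (hT : 0 ≤ T) (η : K) : 0 ≤ ⟪η, T η⟫_ℂ :=
  ((ContinuousLinearMap.nonneg_iff_isPositive T).1 hT).inner_nonneg_right η

lemma nonneg_of_inner {T : K →L[ℂ] K} (h : ∀ η, 0 ≤ ⟪η, T η⟫_ℂ) : 0 ≤ T := by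
  refine (ContinuousLinearMap.nonneg_iff_isPositive T).2
    ((ContinuousLinearMap.isPositive_iff_complex T).2 fun η => ?_)
  obtain ⟨h1, h2⟩ := Complex.le_def.1 (h η)
  have e : ⟪T η, η⟫_ℂ = ((⟪η, T η⟫_ℂ).re : ℂ) := by
    rw [← inner_conj_symm]
    exact Complex.ext (by rw [Complex.conj_re, Complex.ofReal_re])
      (by rw [Complex.conj_im, ← h2, Complex.ofReal_im, Complex.zero_im, neg_zero])
  rw [e]
  exact ⟨rfl, h1⟩

lemma qq_nonneg {T : K →L[ℂ] K} (hT : 0 ≤ T) (η : K) : 0 ≤ qq η T :=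
  (Complex.le_def.1 (inner_nonneg hT η)).1

lemma qq_add (η : K) (S T : K →L[ℂ] K) : qq η (S + T) = qq η S + qq η T := by
  simp [qq]

lemma qq_sub (η : K) (S T : K →L[ℂ] K) : qq η (S - T) = qq η S - qq η T := by
  simp [qq]

lemma qq_smul (η : K) (c : ℝ) (T : K →L[ℂ] K) : qq η ((c : ℂ) • T) = c * qq η T := by
  simp [qq]

lemma qq_sum {α : Type*} (s : Finset α) (η : K) (T : α → K →L[ℂ] K) :
    qq η (∑ a ∈ s, T a) = ∑ a ∈ s, qq η (T a) := by
  simp [qq, _root_.sum_apply]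

lemma qq_mono {S T : K →L[ℂ] K} (h : S ≤ T) (η : K) : qq η S ≤ qq η T := by
  have := qq_nonneg (sub_nonneg.2 h) η
  rw [qq_sub] at this
  linarith

lemma qq_one (η : K) : qq η 1 = ‖η‖ ^ 2 := by
  rw [qq, one_apply_eq_self, inner_self_eq_norm_sq_to_K]
  norm_cast

lemma qq_conj (A T : K →L[ℂ] K) (η : K) : qq η (star A * T * A) = qq (A η) T := by
  rw [qq, qq]
  exact congrArg _ (ContinuousLinearMap.adjoint_inner_right A η (T (A η)))

lemma ext_qq {S T : K →L[ℂ] K} (hS : 0 ≤ S) (hT : 0 ≤ T) (h : ∀ η, qq η S = qq η T) : S = T :=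
  op_ext fun η => Complex.ext (h η)
    ((Complex.le_def.1 (inner_nonneg hS η)).2.symm.trans (Complex.le_def.1 (inner_nonneg hT η)).2)

lemma le_one_of_qq {T : K →L[ℂ] K} (hT : 0 ≤ T) (h : ∀ η, qq η T ≤ ‖η‖ ^ 2) : T ≤ 1 := by
  refine sub_nonneg.1 (nonneg_of_inner fun η => Complex.le_def.2 ⟨?_, ?_⟩)
  · have := qq_sub η 1 T
    rw [qq_one] at this
    change 0 ≤ qq η (1 - T)
    linarith [h η]
  · rw [_root_.sub_apply, inner_sub_right, Complex.sub_im,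
      ← (Complex.le_def.1 (inner_nonneg hT η)).2,
      ← (Complex.le_def.1 (inner_nonneg (T := 1) zero_le_one η)).2, sub_self, Complex.zero_im]

lemma sqrt_commute {A B : K →L[ℂ] K} (h : Commute A B) : Commute (CFC.sqrt A) B :=
  h.cfcₙ_nnreal _

lemma star_sqrt (A : K →L[ℂ] K) : star (CFC.sqrt A) = CFC.sqrt A :=
  (IsSelfAdjoint.of_nonneg (CFC.sqrt_nonneg A)).star_eq

variable (I : Ind K)

lemma sqrt_mem {A : K →L[ℂ] K} (h : A ∈ I.N) : CFC.sqrt A ∈ I.N := fun a ha =>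
  (sqrt_commute (Commute.symm (h a ha))).symm

lemma ρ_mem (μ : Γ) : I.ρ μ ∈ I.N := fun a ha => I.Cρ a ha μ

lemma norm_star_Q {T : K →L[ℂ] K} (hT : T ∈ I.N) (hρ : ∀ μ, Commute T (I.ρ μ)) :
    ‖T I.ξ‖ = ‖star T I.ξ‖ := by
  have h1 := I.pars (T I.ξ)
  have h2 := (Equiv.inv Γ).hasSum_iff.2 (I.pars (star T I.ξ))
  simp only [I.sym T hT hρ] at h1
  simp only [Function.comp_def, Equiv.inv_apply, inv_inv] at h2
  exact (pow_left_inj₀ (norm_nonneg _) (norm_nonneg _) two_ne_zero).1 (h1.unique h2)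

/-- the vector state of `ξ` on `Q` is invariant under `U` -/
lemma qq_U {B : K →L[ℂ] K} (h0 : 0 ≤ B) (hB : B ∈ I.N) (hρ : ∀ μ, Commute B (I.ρ μ)) (g : G) :
    qq (I.U g I.ξ) B = qq I.ξ B := by
  have e : ∀ v, qq v B = ‖CFC.sqrt B v‖ ^ 2 := fun v => by
    rw [← qq_one, ← qq_conj, star_sqrt, mul_one, CFC.sqrt_mul_sqrt_self B h0]
  have hz : ∀ μ, Commute (star (I.y g⁻¹)) (I.ρ μ) := fun μ => by
    have := (I.y_ρ g⁻¹ μ⁻¹).star_star
    rwa [URep.star_apply, inv_inv] at this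
  have h1 := norm_star_Q I (T := CFC.sqrt B * star (I.y g⁻¹))
    (Set.mul_mem_centralizer (sqrt_mem I hB) (Set.star_mem_centralizer' I.star_C (I.y_N _)))
    fun μ => (sqrt_commute (hρ μ)).mul_left (hz μ)
  rw [star_mul, star_star, star_sqrt, mul_apply_eq_comp, mul_apply_eq_comp, I.star_y_ξ, inv_inv,
    ContinuousLinearMap.norm_map_of_mem_unitary (I.y_un _)] at h1
  rw [e, e, h1]

/-- one half of the ping-pong pair has no mass -/
lemma half (Θ : ℕ → (K →L[ℂ] K) →ₗ[ℂ] (K →L[ℂ] K)) (pos : ∀ n T, 0 ≤ T → 0 ≤ Θ n T)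
    (up : ∀ n, Θ n 1 ≤ 1) {E : K →L[ℂ] K} (h0 : 0 ≤ E) (h1 : E ≤ 1) (mem : ∀ n, Θ n E ∈ I.N)
    (inv : ∀ κ η, Tendsto (fun n => qq (I.ρ κ η) (Θ n E) - qq η (Θ n E)) atTop (𝓝 0))
    (g : ℕ → G) (cov : ∀ n r, Θ n (I.U (g r)⁻¹ * E * I.U (g r)) = I.U (g r)⁻¹ * Θ n E * I.U (g r))
    {B : ℝ} (hB : ∀ n : ℕ, ∑ r ∈ Finset.range n, I.U (g r)⁻¹ * E * I.U (g r)
      ≤ (B : ℂ) • (1 : K →L[ℂ] K)) :
    Tendsto (fun n => qq I.ξ (Θ n E)) (Filter.hyperfilter ℕ) (𝓝 0) := by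
  have mono : ∀ n S T, S ≤ T → Θ n S ≤ Θ n T := fun n S T h =>
    sub_nonneg.1 (by rw [← map_sub]; exact pos n _ (sub_nonneg.2 h))
  have hn : ∀ n, ‖Θ n E‖ ≤ 1 := fun n =>
    (CStarAlgebra.norm_le_one_iff_of_nonneg _ (pos n E h0)).2 ((mono n _ _ h1).trans (up n))
  obtain ⟨L, -, hL⟩ := exists_wtends (Filter.hyperfilter ℕ) (Eventually.of_forall hn)
  have hq : ∀ η, Tendsto (fun n => qq η (Θ n E)) (Filter.hyperfilter ℕ) (𝓝 (qq η L)) := fun η =>
    (Complex.continuous_re.tendsto _).comp (hL η η)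
  have hL0 : 0 ≤ L := nonneg_of_inner fun η =>
    ge_of_tendsto' (hL η η) fun n => inner_nonneg (pos n E h0) η
  have hLN : L ∈ I.N := fun a ha => by
    refine (hL.mul_left a).unique ?_
    have e : (fun n => a * Θ n E) = fun n => Θ n E * a := funext fun n => mem n a ha
    rw [e]
    exact hL.mul_right a
  have hLρ : ∀ κ, Commute L (I.ρ κ) := fun κ => by
    have e : star (I.ρ κ) * L * I.ρ κ = L := by
      refine ext_qq (star_left_conjugate_nonneg hL0 _) hL0 fun η => ?_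
      rw [qq_conj]
      refine sub_eq_zero.1 (tendsto_nhds_unique ((hq _).sub (hq η)) ((inv κ η).mono_left ?_))
      rw [← Nat.cofinite_eq_atTop]
      exact Filter.hyperfilter_le_cofinite
    rw [URep.star_apply] at e
    conv_rhs => rw [← one_mul (I.ρ κ)]
    change L * I.ρ κ = I.ρ κ * L
    conv_rhs => rw [← e]
    rw [← mul_assoc, ← mul_assoc, URep.mul_inv_self, one_mul]
  have hN : ∀ N : ℕ, N * qq I.ξ L ≤ |B| * ‖I.ξ‖ ^ 2 := fun N => by
    have t : Tendsto (fun n => ∑ r ∈ Finset.range N, qq (I.U (g r) I.ξ) (Θ n E))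
        (Filter.hyperfilter ℕ) (𝓝 (∑ r ∈ Finset.range N, qq (I.U (g r) I.ξ) L)) :=
      tendsto_finsetSum _ fun r _ => hq _
    simp only [qq_U I hL0 hLN hLρ, Finset.sum_const, Finset.card_range, nsmul_eq_mul] at t
    refine le_of_tendsto' t fun n => ?_
    have h2 := qq_mono (mono n _ _ (hB N)) I.ξ
    rw [map_sum, qq_sum, map_smul, qq_smul] at h2
    simp only [cov] at h2
    simp only [← URep.star_apply, qq_conj] at h2
    have h3 := qq_mono (up n) I.ξ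
    rw [qq_one] at h3
    have h4 := qq_nonneg (pos n 1 zero_le_one) I.ξ
    exact h2.trans ((mul_le_mul_of_nonneg_right (le_abs_self B) h4).trans
      (mul_le_mul_of_nonneg_left h3 (abs_nonneg B)))
  have hz : qq I.ξ L = 0 := by
    refine le_antisymm (not_lt.1 fun hp => ?_) (qq_nonneg hL0 _)
    obtain ⟨N, hN'⟩ := exists_nat_gt (|B| * ‖I.ξ‖ ^ 2 / qq I.ξ L)
    rw [div_lt_iff₀ hp] at hN'
    exact absurd (hN N) (not_le.2 hN')
  rw [← hz]
  exact hq _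

/-! ### amenability data -/

/-- the action on pairs of unit vectors -/
noncomputable def act (μ : Γ) (z : V × V) : V × V :=
  (nrm (ac (ι μ) z.1), nrm (ac (ι (dl μ)) z.2))

/-- flags -/
def Fl : Set (V × V) := {z | ‖z.1‖ = 1 ∧ ‖z.2‖ = 1 ∧ z.1 ⬝ᵥ z.2 = 0}

lemma measurable_act (μ : Γ) : Measurable (act μ) := by
  unfold act
  fun_prop

lemma measurableSet_Fl : MeasurableSet Fl := by
  refine IsClosed.measurableSet ?_
  exact (isClosed_eq (by fun_prop) continuous_const).inter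
    ((isClosed_eq (by fun_prop) continuous_const).inter
      (isClosed_eq (by fun_prop) continuous_const))

/-- a finitely supported, piecewise constant family of weights -/
structure AmD where
  J : Type
  [fin : Fintype J]
  p : V × V → J
  c : Γ → J → ℝ
  F : Finset Γ
  meas : ∀ i, MeasurableSet (p ⁻¹' {i})
  ev : ∀ a b, p (-a, b) = p (a, b) ∧ p (a, -b) = p (a, b)
  c0 : ∀ μ i, 0 ≤ c μ i
  supp : ∀ μ, μ ∉ F → ∀ i, c μ i = 0
  lo : ∀ z ∈ Fl, 1 / 2 ≤ ∑ μ ∈ F, c μ (p (act μ z))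
  up : ∀ z ∈ Fl, ∑ μ ∈ F, c μ (p (act μ z)) ≤ 1

attribute [instance] AmD.fin

/-- amenability of the action on flags -/
def AmStmt : Prop :=
  ∃ D : ℕ → AmD, ∀ κ : Γ, ∀ ε > 0, ∀ᶠ n in atTop, ∀ z ∈ Fl, ∀ S : Finset Γ,
    ∑ μ ∈ S, |(D n).c (μ * κ⁻¹) ((D n).p (act μ z)) - (D n).c μ ((D n).p (act μ z))| ≤ ε

variable (P : POVM (V × V) K) (D : AmD)

/-- square root of the mass of a cell -/
noncomputable def sq (i : D.J) : K →L[ℂ] K := CFC.sqrt (P.E (ic (D.p ⁻¹' {i})))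

/-- the averaging map -/
noncomputable def Th (d : Γ → D.J → ℝ) (S : Finset Γ) : (K →L[ℂ] K) →ₗ[ℂ] (K →L[ℂ] K) :=
  ∑ μ ∈ S, ∑ i, (d μ i : ℂ) •
    (LinearMap.mulRight ℂ (sq P D i * I.ρ μ) ∘ₗ LinearMap.mulLeft ℂ (star (sq P D i * I.ρ μ)))

lemma Th_apply (d : Γ → D.J → ℝ) (S : Finset Γ) (T : K →L[ℂ] K) :
    Th I P D d S T = ∑ μ ∈ S, ∑ i, (d μ i : ℂ) •
      (star (sq P D i * I.ρ μ) * T * (sq P D i * I.ρ μ)) := by
  simp only [Th, LinearMap.sum_apply, LinearMap.smul_apply, LinearMap.comp_apply,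
    LinearMap.mulRight_apply, LinearMap.mulLeft_apply]

lemma qq_Th (d : Γ → D.J → ℝ) (S : Finset Γ) (T : K →L[ℂ] K) (η : K) :
    qq η (Th I P D d S T) = ∑ μ ∈ S, ∑ i, d μ i * qq (sq P D i (I.ρ μ η)) T := by
  simp only [Th_apply, qq_sum, qq_smul, qq_conj, mul_apply_eq_comp]

lemma E_ic_nonneg {O : Set (V × V)} (hO : MeasurableSet O) : 0 ≤ P.E (ic O) :=
  nonneg_of_inner fun η => by
    rw [P.inner_ic hO]
    exact_mod_cast measureReal_nonneg

lemma ae_Fl (hP : P.E (ic Fl) = 1) (η : K) : ∀ᵐ z ∂(P.ν η), z ∈ Fl := by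
  have := P.fin η
  have h2 : (P.ν η).real Fl = ‖η‖ ^ 2 := by
    rw [← qq_one, qq, ← hP, P.inner_ic measurableSet_Fl, Complex.ofReal_re]
  have h3 : (P.ν η).real Flᶜ = 0 := by
    rw [measureReal_compl measurableSet_Fl, P.ν_univ, h2, sub_self]
  exact (measureReal_eq_zero_iff (measure_ne_top _ _)).1 h3

variable {I P}

/-- covariance hypothesis -/
def Cov (I : Ind K) (P : POVM (V × V) K) : Prop :=
  ∀ f, BM f → (∀ a b, f (-a, b) = f (a, b) ∧ f (a, -b) = f (a, b)) → ∀ ν : Γ,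
    I.ρ ν * P.E f * I.ρ ν⁻¹ = P.E fun z => f (act ν⁻¹ z)

lemma qq_Th_one (hc : Cov I P) (d : Γ → D.J → ℝ) (S : Finset Γ) (η : K) :
    Integrable (fun z => ∑ μ ∈ S, d μ (D.p (act μ z))) (P.ν η) ∧
    qq η (Th I P D d S 1) = ∫ z, ∑ μ ∈ S, d μ (D.p (act μ z)) ∂(P.ν η) := by
  classical
  have := P.fin η
  have hm : ∀ μ i, MeasurableSet (act μ ⁻¹' (D.p ⁻¹' {i})) := fun μ i =>
    measurable_act μ (D.meas i)
  have e1 : ∀ μ i, qq (sq P D i (I.ρ μ η)) 1 = (P.ν η).real (act μ ⁻¹' (D.p ⁻¹' {i})) := by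
    intro μ i
    have h := hc (ic (D.p ⁻¹' {i})) (BM.ic (D.meas i))
      (fun a b => by simp only [ic_apply, Set.mem_preimage, (D.ev a b).1, (D.ev a b).2, and_self])
      μ⁻¹
    rw [inv_inv, ← URep.star_apply] at h
    rw [← qq_conj, sq, star_sqrt, mul_one, CFC.sqrt_mul_sqrt_self _ (E_ic_nonneg P (D.meas i)),
      ← qq_conj, h, qq]
    have h2 : (fun z => ic (D.p ⁻¹' {i}) (act μ z)) = ic (act μ ⁻¹' (D.p ⁻¹' {i})) :=
      funext fun z => (ic_preimage _ _ z).symm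
    rw [h2, P.inner_ic (hm μ i), Complex.ofReal_re]
  have e2 : ∀ μ z, d μ (D.p (act μ z))
      = ∑ i, (act μ ⁻¹' (D.p ⁻¹' {i})).indicator (fun _ => d μ i) z := fun μ z => by
    rw [Finset.sum_eq_single (D.p (act μ z))]
    · rw [Set.indicator_of_mem (by simp)]
    · intro i _ hi
      rw [Set.indicator_of_notMem (by simpa using hi.symm)]
    · simp
  have hi : ∀ μ i, Integrable ((act μ ⁻¹' (D.p ⁻¹' {i})).indicator fun _ => d μ i) (P.ν η) :=
    fun μ i => (integrable_const _).indicator (hm μ i)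
  simp only [e2]
  refine ⟨integrable_finsetSum _ fun μ _ => integrable_finsetSum _ fun i _ => hi μ i, ?_⟩
  rw [qq_Th, integral_finsetSum _ fun μ _ => integrable_finsetSum _ fun i _ => hi μ i]
  refine Finset.sum_congr rfl fun μ _ => ?_
  rw [integral_finsetSum _ fun i _ => hi μ i]
  refine Finset.sum_congr rfl fun i _ => ?_
  rw [e1, integral_indicator_const _ (hm μ i), smul_eq_mul, mul_comm]

lemma qq_Th_one_le (hP : P.E (ic Fl) = 1) (hc : Cov I P) {d : Γ → D.J → ℝ} {S : Finset Γ} {C : ℝ}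
    (h : ∀ z ∈ Fl, ∑ μ ∈ S, d μ (D.p (act μ z)) ≤ C) (η : K) :
    qq η (Th I P D d S 1) ≤ C * ‖η‖ ^ 2 := by
  have := P.fin η
  obtain ⟨h1, h2⟩ := qq_Th_one D hc d S η
  rw [h2, ← P.ν_univ, mul_comm, ← smul_eq_mul, ← integral_const]
  exact integral_mono_ae h1 (integrable_const _) ((ae_Fl P hP η).mono h)

lemma le_qq_Th_one (hP : P.E (ic Fl) = 1) (hc : Cov I P) {d : Γ → D.J → ℝ} {S : Finset Γ} {C : ℝ}
    (h : ∀ z ∈ Fl, C ≤ ∑ μ ∈ S, d μ (D.p (act μ z))) (η : K) :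
    C * ‖η‖ ^ 2 ≤ qq η (Th I P D d S 1) := by
  have := P.fin η
  obtain ⟨h1, h2⟩ := qq_Th_one D hc d S η
  rw [h2, ← P.ν_univ, mul_comm, ← smul_eq_mul, ← integral_const]
  exact integral_mono_ae (integrable_const _) h1 ((ae_Fl P hP η).mono h)

lemma Th_nonneg {T : K →L[ℂ] K} (hT : 0 ≤ T) : 0 ≤ Th I P D D.c D.F T := by
  rw [Th_apply]
  refine Finset.sum_nonneg fun μ _ => Finset.sum_nonneg fun i _ => ?_
  exact smul_nonneg (by exact_mod_cast D.c0 μ i) (star_left_conjugate_nonneg hT _)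

lemma Th_mem (hN : ∀ f, BM f → P.E f ∈ I.N) {T : K →L[ℂ] K} (hT : T ∈ I.N) :
    Th I P D D.c D.F T ∈ I.N := by
  have h : ∀ μ i, sq P D i * I.ρ μ ∈ I.N := fun μ i =>
    Set.mul_mem_centralizer (sqrt_mem I (hN _ (BM.ic (D.meas i)))) (ρ_mem I μ)
  intro a ha
  rw [Th_apply]
  refine Commute.sum_right _ _ _ fun μ _ => Commute.sum_right _ _ _ fun i _ => Commute.smul_right ?_ _
  exact Set.mul_mem_centralizer (Set.mul_mem_centralizer
    (Set.star_mem_centralizer' I.star_C (h μ i)) hT) (h μ i) a ha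

lemma Th_cov {g : G} (hg : ∀ f, BM f → Commute (P.E f) (I.U g)) (T : K →L[ℂ] K) :
    Th I P D D.c D.F (I.U g⁻¹ * T * I.U g) = I.U g⁻¹ * Th I P D D.c D.F T * I.U g := by
  simp only [Th_apply, Finset.mul_sum, Finset.sum_mul, mul_smul_comm, smul_mul_assoc]
  refine Finset.sum_congr rfl fun μ _ => Finset.sum_congr rfl fun i _ => ?_
  have h : Commute (sq P D i * I.ρ μ) (I.U g) :=
    (sqrt_commute (hg _ (BM.ic (D.meas i)))).mul_left (I.Uρ g μ).symm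
  have h' := h.star_star
  rw [URep.star_apply] at h'
  congr 1
  generalize sq P D i * I.ρ μ = A at h h'
  rw [← mul_assoc, ← mul_assoc, h'.eq]
  simp only [mul_assoc, h.eq]

lemma Th_shift (hP : P.E (ic Fl) = 1) (hc : Cov I P) {T : K →L[ℂ] K} (h0 : 0 ≤ T) (h1 : T ≤ 1)
    (κ : Γ) {ε : ℝ} (h : ∀ z ∈ Fl, ∀ S : Finset Γ,
      ∑ μ ∈ S, |D.c (μ * κ⁻¹) (D.p (act μ z)) - D.c μ (D.p (act μ z))| ≤ ε) (η : K) :
    |qq (I.ρ κ η) (Th I P D D.c D.F T) - qq η (Th I P D D.c D.F T)| ≤ ε * ‖η‖ ^ 2 := by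
  classical
  set S := D.F ∪ D.F.map (Equiv.mulRight κ).toEmbedding with hS
  have e1 : qq η (Th I P D D.c D.F T) = ∑ μ ∈ S, ∑ i, D.c μ i * qq (sq P D i (I.ρ μ η)) T := by
    rw [qq_Th]
    exact Finset.sum_subset Finset.subset_union_left fun μ _ hμ => by simp [D.supp μ hμ]
  have e2 : qq (I.ρ κ η) (Th I P D D.c D.F T)
      = ∑ μ ∈ S, ∑ i, D.c (μ * κ⁻¹) i * qq (sq P D i (I.ρ μ η)) T := by
    rw [qq_Th, ← Finset.sum_subset (Finset.subset_union_right (s₁ := D.F)), Finset.sum_map]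
    · simp
    · intro μ _ hμ
      have : μ * κ⁻¹ ∉ D.F := fun h => hμ (Finset.mem_map.2 ⟨_, h, by simp⟩)
      simp [D.supp _ this]
  refine le_trans ?_ (qq_Th_one_le D hP hc (d := fun μ i => |D.c (μ * κ⁻¹) i - D.c μ i|) (S := S)
    (fun z hz => h z hz S) η)
  rw [e1, e2, ← Finset.sum_sub_distrib, qq_Th]
  refine (Finset.abs_sum_le_sum_abs _ _).trans (Finset.sum_le_sum fun μ _ => ?_)
  rw [← Finset.sum_sub_distrib]
  refine (Finset.abs_sum_le_sum_abs _ _).trans (Finset.sum_le_sum fun i _ => ?_)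
  rw [← sub_mul, abs_mul, abs_of_nonneg (qq_nonneg h0 _)]
  exact mul_le_mul_of_nonneg_left (qq_mono h1 _) (abs_nonneg _)

theorem amen_of (hA : AmStmt) : AmenStmt := by
  intro K _ _ _ I ⟨E₁, m₁, E₂, m₂, B, p₁, p₂, hE, hB⟩ P hP hN hU hc
  obtain ⟨D, hD⟩ := hA
  have hc' : Cov I P := hc
  have hP' : P.E (ic Fl) = 1 := hP
  let Θ := fun n => Th I P (D n) (D n).c (D n).F
  have pos : ∀ n T, 0 ≤ T → 0 ≤ Θ n T := fun n T hT => Th_nonneg (D n) hT
  have up : ∀ n, Θ n 1 ≤ 1 := fun n => le_one_of_qq (pos n 1 zero_le_one) fun η => by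
    simpa using qq_Th_one_le (D n) hP' hc' (D n).up η
  have inv : ∀ T, 0 ≤ T → T ≤ 1 → ∀ κ η,
      Tendsto (fun n => qq (I.ρ κ η) (Θ n T) - qq η (Θ n T)) atTop (𝓝 0) := by
    intro T h0 h1 κ η
    refine Metric.tendsto_nhds.2 fun ε hε => ?_
    filter_upwards [hD κ (ε / (‖η‖ ^ 2 + 1)) (by positivity)] with n hn
    rw [Real.dist_0_eq_abs]
    refine (Th_shift (D n) hP' hc' h0 h1 κ hn η).trans_lt ?_
    rw [div_mul_eq_mul_div, div_lt_iff₀ (by positivity)]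
    linarith
  have l₁ : E₁ ≤ 1 := hE ▸ le_add_of_nonneg_right p₂
  have l₂ : E₂ ≤ 1 := hE ▸ le_add_of_nonneg_left p₁
  have t₁ := half I Θ pos up p₁ l₁ (fun n => Th_mem (D n) hN m₁) (inv _ p₁ l₁) _
    (fun n r => Th_cov (D n) (fun f hf => (hU f hf r).2) E₁) fun n => (hB n).1
  have t₂ := half I Θ pos up p₂ l₂ (fun n => Th_mem (D n) hN m₂) (inv _ p₂ l₂) _
    (fun n r => Th_cov (D n) (fun f hf => (hU f hf r).1) E₂) fun n => (hB n).2
  have t := t₁.add t₂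
  simp only [← qq_add, ← map_add, hE, add_zero] at t
  have h := ge_of_tendsto' t fun n => le_qq_Th_one (D n) hP' hc' (D n).lo I.ξ
  have := norm_pos_iff.2 I.ξ_ne
  nlinarith [pow_pos this 2]

end Crest.Agent.N111.AmenAux
end

-- ▼ part N111/I/AmenB
section

/-!
# Row 111: `AmenStmt`, soft part of the amenability of flags: normalised weights, averaging over
cubes, rounding (helper60)
-/

set_option autoImplicit false
set_option linter.unusedSectionVars false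

namespace Crest.Agent.N111.AmenAux

open MeasureTheory Topology Filter Matrix

/-! ### normalised weights -/

/-- normalisation -/
noncomputable def pr (W : Γ → ℝ) (μ : Γ) : ℝ := W μ / ∑' ν, W ν

lemma pr_nonneg {W : Γ → ℝ} (h : ∀ μ, 0 ≤ W μ) (μ : Γ) : 0 ≤ pr W μ :=
  div_nonneg (h μ) (tsum_nonneg h)

lemma sum_pr_le {W : Γ → ℝ} (h : ∀ μ, 0 ≤ W μ) (S : Finset Γ) : ∑ μ ∈ S, pr W μ ≤ 1 := by
  simp only [pr, ← Finset.sum_div]
  by_cases hs : Summable W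
  · exact div_le_one_of_le₀ (hs.sum_le_tsum S fun μ _ => h μ) (tsum_nonneg h)
  · simp [tsum_eq_zero_of_not_summable hs]

lemma hasSum_pr {W : Γ → ℝ} (hs : Summable W) (hp : 0 < ∑' ν, W ν) : HasSum (pr W) 1 := by
  have := hs.hasSum.div_const (∑' ν, W ν)
  rwa [div_self hp.ne'] at this

lemma pr_le {W W' : Γ → ℝ} {Λ : ℝ} (h : ∀ μ, 0 ≤ W μ) (hs : Summable W) (hs' : Summable W')
    (hp : 0 < ∑' ν, W ν) (hΛ : 0 < Λ) (h1 : ∀ μ, W' μ ≤ Λ * W μ) (h2 : ∀ μ, W μ ≤ Λ * W' μ) (μ : Γ) :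
    pr W' μ ≤ Λ ^ 2 * pr W μ := by
  have h3 : ∑' ν, W ν ≤ Λ * ∑' ν, W' ν := by
    rw [← tsum_mul_left]
    exact hs.tsum_le_tsum h2 (hs'.mul_left Λ)
  have hp' : 0 < ∑' ν, W' ν := (mul_pos_iff_of_pos_left hΛ).1 (hp.trans_le h3)
  rw [pr, pr, ← mul_div_assoc, div_le_div_iff₀ hp' hp]
  calc W' μ * ∑' ν, W ν ≤ (Λ * W μ) * (Λ * ∑' ν, W' ν) :=
        mul_le_mul (h1 μ) h3 hp.le (mul_nonneg hΛ.le (h μ))
    _ = _ := by ring

lemma pr_close {W W' : Γ → ℝ} {Λ : ℝ} (h : ∀ μ, 0 ≤ W μ) (h' : ∀ μ, 0 ≤ W' μ) (hs : Summable W)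
    (hs' : Summable W') (hp : 0 < ∑' ν, W ν) (hp' : 0 < ∑' ν, W' ν) (hΛ : 1 ≤ Λ)
    (h1 : ∀ μ, W' μ ≤ Λ * W μ) (h2 : ∀ μ, W μ ≤ Λ * W' μ) (S : Finset Γ) :
    ∑ μ ∈ S, |pr W' μ - pr W μ| ≤ 2 * (Λ ^ 2 - 1) := by
  have hΛ2 : 0 ≤ Λ ^ 2 - 1 := by nlinarith
  calc ∑ μ ∈ S, |pr W' μ - pr W μ| ≤ ∑ μ ∈ S, (Λ ^ 2 - 1) * (pr W μ + pr W' μ) := by
        refine Finset.sum_le_sum fun μ _ => ?_
        have a1 := pr_le h hs hs' hp (by linarith) h1 h2 μ
        have a2 := pr_le h' hs' hs hp' (by linarith) h2 h1 μ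
        have a3 := mul_nonneg hΛ2 (pr_nonneg h μ)
        have a4 := mul_nonneg hΛ2 (pr_nonneg h' μ)
        rw [abs_le]
        constructor <;> nlinarith
    _ ≤ _ := by
        rw [← Finset.mul_sum, Finset.sum_add_distrib]
        nlinarith [sum_pr_le h S, sum_pr_le h' S]

/-! ### averaging -/

lemma sum_close {α : Type*} [DecidableEq α] {f : α → Γ → ℝ} (h0 : ∀ j μ, 0 ≤ f j μ)
    {S : Finset Γ} (h1 : ∀ j, ∑ μ ∈ S, f j μ ≤ 1) {A B Q : Finset α} (hA : Q ⊆ A) (hB : Q ⊆ B) :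
    ∑ μ ∈ S, |∑ j ∈ A, f j μ - ∑ j ∈ B, f j μ| ≤ (A.card - Q.card) + (B.card - Q.card) := by
  have key : ∀ {A : Finset α}, Q ⊆ A → ∑ μ ∈ S, ∑ j ∈ A \ Q, f j μ ≤ A.card - Q.card := by
    intro A hA
    rw [Finset.sum_comm]
    refine (Finset.sum_le_sum fun j _ => h1 j).trans ?_
    rw [Finset.sum_const, nsmul_eq_mul, mul_one, Finset.card_sdiff_of_subset hA,
      Nat.cast_sub (Finset.card_le_card hA)]
  refine le_trans (Finset.sum_le_sum fun μ _ => ?_)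
    ((Finset.sum_add_distrib).trans_le (add_le_add (key hA) (key hB)))
  rw [← Finset.sum_sdiff hA, ← Finset.sum_sdiff hB, add_sub_add_right_eq_sub, abs_le]
  have a1 := Finset.sum_nonneg fun j (_ : j ∈ A \ Q) => h0 j μ
  have a2 := Finset.sum_nonneg fun j (_ : j ∈ B \ Q) => h0 j μ
  constructor <;> linarith

/-- a cube -/
noncomputable def cube (o : Fin 3 → ℤ) (n : ℕ) : Finset (Fin 3 → ℤ) :=
  Fintype.piFinset fun i => Finset.Ico (o i) (o i + n)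

lemma mem_cube {o j : Fin 3 → ℤ} {n : ℕ} : j ∈ cube o n ↔ ∀ i, o i ≤ j i ∧ j i < o i + n := by
  simp [cube]

lemma card_cube (o : Fin 3 → ℤ) (n : ℕ) : (cube o n).card = n ^ 3 := by
  simp [cube]

lemma cube_close {f f' : (Fin 3 → ℤ) → Γ → ℝ} (h0 : ∀ j μ, 0 ≤ f j μ) {S : Finset Γ}
    (h1 : ∀ j, ∑ μ ∈ S, f j μ ≤ 1) (o σ : Fin 3 → ℤ) {n D : ℕ} (hD : 2 * D ≤ n)
    (hσ : ∀ i, |σ i| ≤ D) {ε : ℝ} (h : ∀ j ∈ cube o n, ∑ μ ∈ S, |f' j μ - f (j + σ) μ| ≤ ε) :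
    ∑ μ ∈ S, |∑ j ∈ cube o n, f' j μ - ∑ j ∈ cube o n, f j μ| ≤ n ^ 3 * ε + 12 * D * n ^ 2 := by
  obtain ⟨r, rfl⟩ := Nat.exists_eq_add_of_le hD
  set n := 2 * D + r with hn
  have hn' : (n : ℤ) = 2 * D + r := by rw [hn]; push_cast; ring
  have hA : cube (fun i => o i + D) r ⊆ (cube o n).map (Equiv.addRight σ).toEmbedding := by
    intro j hj
    refine Finset.mem_map.2 ⟨j - σ, mem_cube.2 fun i => ?_, by simp⟩
    have := mem_cube.1 hj i
    have := abs_le.1 (hσ i)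
    simp only [Pi.sub_apply]
    omega
  have hB : cube (fun i => o i + D) r ⊆ cube o n := fun j hj => mem_cube.2 fun i => by
    have := mem_cube.1 hj i
    omega
  have a1 := sum_close h0 h1 hA hB
  simp only [Finset.sum_map, Finset.card_map, card_cube, Equiv.coe_toEmbedding,
    Equiv.coe_addRight] at a1
  have a2 : ∑ μ ∈ S, |∑ j ∈ cube o n, f' j μ - ∑ j ∈ cube o n, f (j + σ) μ| ≤ n ^ 3 * ε := by
    calc _ ≤ ∑ μ ∈ S, ∑ j ∈ cube o n, |f' j μ - f (j + σ) μ| := by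
          refine Finset.sum_le_sum fun μ _ => ?_
          rw [← Finset.sum_sub_distrib]
          exact Finset.abs_sum_le_sum_abs _ _
      _ ≤ ∑ j ∈ cube o n, ε := by
          rw [Finset.sum_comm]
          exact Finset.sum_le_sum h
      _ = _ := by rw [Finset.sum_const, card_cube, nsmul_eq_mul, Nat.cast_pow]
  have a3 : ((n ^ 3 : ℕ) : ℝ) - (r ^ 3 : ℕ) ≤ 6 * D * n ^ 2 := by
    rw [hn]
    push_cast
    have hD : (0 : ℝ) ≤ D := Nat.cast_nonneg _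
    have hr : (0 : ℝ) ≤ r := Nat.cast_nonneg _
    nlinarith [mul_nonneg hD hD, mul_nonneg hD hr, mul_nonneg (mul_nonneg hD hD) hD,
      mul_nonneg (mul_nonneg hD hD) hr]
  refine le_trans (Finset.sum_le_sum fun μ _ => abs_sub_le _ (∑ j ∈ cube o n, f (j + σ) μ) _) ?_
  rw [Finset.sum_add_distrib]
  linarith

/-! ### rounding -/

/-- the linear action on pairs -/
def lin (g : G) (z : V × V) : V × V := (ac g z.1, ac (dl g) z.2)

/-- flags, not normalised -/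
def Fl' : Set (V × V) := {z | z.1 ≠ 0 ∧ z.2 ≠ 0 ∧ z.1 ⬝ᵥ z.2 = 0}

lemma lin_mul (g h : G) (z : V × V) : lin (g * h) z = lin g (lin h z) := by
  simp only [lin, map_mul, ac_mul]

lemma lin_one (z : V × V) : lin 1 z = z := by simp [lin]

lemma lin_mem {z : V × V} (hz : z ∈ Fl') (g : G) : lin g z ∈ Fl' :=
  ⟨ac_ne_zero g hz.1, ac_ne_zero _ hz.2.1, (ac_dot_ac_dl g _ _).trans hz.2.2⟩

lemma Fl_sub {z : V × V} (hz : z ∈ Fl) : z ∈ Fl' :=
  ⟨norm_ne_zero_iff.1 (by rw [hz.1]; exact one_ne_zero),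
    norm_ne_zero_iff.1 (by rw [hz.2.1]; exact one_ne_zero), hz.2.2⟩

lemma measurable_lin (g : G) : Measurable (lin g) := by
  unfold lin
  fun_prop

lemma round (q : Γ → V × V → ℝ) (hm : ∀ μ, Measurable (q μ))
    (hs : ∀ μ (s t : ℝ) a b, s ≠ 0 → t ≠ 0 → q μ (s • a, t • b) = q μ (a, b))
    (h0 : ∀ μ z, 0 ≤ q μ z) (h1 : ∀ μ z, q μ z ≤ 1) (hsum : ∀ z ∈ Fl', HasSum (fun μ => q μ z) 1)
    {h : Γ → ℝ} (hh : Summable h) (hd : ∀ z ∈ Fl', ∀ μ, q μ z ≤ h μ) {ε : ℝ} (hε : 0 < ε)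
    (hε' : ε ≤ 1 / 4) : ∃ D : AmD, ∀ κ : Γ, ∀ z ∈ Fl, ∀ S : Finset Γ,
      ∑ μ ∈ S, |D.c (μ * κ⁻¹) (D.p (act μ z)) - D.c μ (D.p (act μ z))|
        ≤ ∑ μ ∈ S, |q (μ * κ⁻¹) (lin (ι κ) z) - q μ z| + 4 * ε := by
  classical
  obtain ⟨F, hF⟩ := summable_iff_vanishing_norm.1 hh ε hε
  obtain ⟨N, hN⟩ := exists_nat_gt (F.card / ε)
  have hN0 : (0 : ℝ) < N := lt_of_le_of_lt (by positivity) hN
  let qt : Γ → V × V → ℝ := fun μ w => if μ ∈ F then (⌊N * q μ w⌋₊ : ℝ) / N else 0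
  have t1 : ∀ μ w, qt μ w ≤ q μ w := fun μ w => by
    simp only [qt]
    split_ifs
    · rw [div_le_iff₀' hN0]
      exact Nat.floor_le (mul_nonneg hN0.le (h0 μ w))
    · exact h0 μ w
  have t2 : ∀ w ∈ Fl', ∀ S : Finset Γ, ∑ μ ∈ S, (q μ w - qt μ w) ≤ 2 * ε := by
    intro w hw S
    rw [← Finset.sum_filter_add_sum_filter_not S (· ∈ F)]
    have a1 : ∑ μ ∈ S.filter (· ∈ F), (q μ w - qt μ w) ≤ ε := by
      calc _ ≤ ∑ μ ∈ S.filter (· ∈ F), (1 / N : ℝ) := by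
            refine Finset.sum_le_sum fun μ hμ => ?_
            simp only [qt, if_pos (Finset.mem_filter.1 hμ).2]
            rw [sub_le_iff_le_add, ← add_div, le_div_iff₀' hN0]
            linarith [Nat.lt_floor_add_one (N * q μ w)]
        _ ≤ F.card * (1 / N) := by
            rw [Finset.sum_const, nsmul_eq_mul]
            gcongr
            exact fun μ hμ => (Finset.mem_filter.1 hμ).2
        _ ≤ ε := by
            rw [div_lt_iff₀ hε] at hN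
            rw [mul_one_div, div_le_iff₀ hN0]
            linarith
    have a2 : ∑ μ ∈ S.filter (¬ · ∈ F), (q μ w - qt μ w) ≤ ε := by
      have := hF (S.filter (¬ · ∈ F)) (Finset.disjoint_left.2 fun μ hμ => (Finset.mem_filter.1 hμ).2)
      refine le_trans (Finset.sum_le_sum fun μ hμ => ?_) ((le_abs_self _).trans this.le)
      simp only [qt, if_neg (Finset.mem_filter.1 hμ).2, sub_zero]
      exact hd w hw μ
    linarith
  let p : V × V → F → Fin (N + 1) := fun z μ => ⟨⌊N * q μ (lin (ι μ)⁻¹ z)⌋₊,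
    Nat.lt_succ_of_le (Nat.floor_le_of_le (mul_le_of_le_one_right hN0.le (h1 _ _)))⟩
  let c : Γ → (F → Fin (N + 1)) → ℝ := fun μ i => if h : μ ∈ F then ((i ⟨μ, h⟩ : ℕ) : ℝ) / N else 0
  have e1 : ∀ ν μ, ∀ z ∈ Fl', c ν (p (act μ z)) = qt ν (lin ((ι ν)⁻¹ * ι μ) z) := by
    intro ν μ z hz
    have : q ν (lin (ι ν)⁻¹ (act μ z)) = q ν (lin ((ι ν)⁻¹ * ι μ) z) := by
      rw [lin_mul]
      simp only [lin, act, nrm, ac_smul, ι_dl]
      exact hs _ _ _ _ _ (inv_ne_zero (norm_ne_zero_iff.2 (ac_ne_zero _ hz.1)))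
        (inv_ne_zero (norm_ne_zero_iff.2 (ac_ne_zero _ hz.2.1)))
    simp only [c, p, qt, this]
    split_ifs <;> rfl
  have e2 : ∀ μ, ∀ z ∈ Fl', c μ (p (act μ z)) = qt μ z := fun μ z hz => by
    rw [e1 μ μ z hz, inv_mul_cancel, lin_one]
  refine ⟨⟨F → Fin (N + 1), p, c, F, fun i => ?_, fun a b => ?_, fun μ i => ?_, fun μ hμ i => dif_neg hμ,
    fun z hz => ?_, fun z hz => ?_⟩, fun κ z hz S => ?_⟩
  · have : p ⁻¹' {i} = ⋂ μ : F, (fun z => ⌊N * q μ (lin (ι μ)⁻¹ z)⌋₊) ⁻¹' {(i μ : ℕ)} := by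
      ext z
      simp only [Set.mem_preimage, Set.mem_singleton_iff, Set.mem_iInter, funext_iff, Fin.ext_iff, p]
    rw [this]
    exact MeasurableSet.iInter fun μ =>
      (((hm μ).comp (measurable_lin _)).const_mul _).nat_floor (measurableSet_singleton _)
  · constructor <;> funext μ <;> apply Fin.ext <;> simp only [p, lin, ac_neg]
    · rw [← neg_one_smul ℝ (ac _ a), ← one_smul ℝ (ac _ b), hs _ _ _ _ _ (by simp) one_ne_zero,
        one_smul]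
    · rw [← neg_one_smul ℝ (ac _ b), ← one_smul ℝ (ac _ a), hs _ _ _ _ _ one_ne_zero (by simp),
        one_smul]
  · simp only [c]
    split_ifs <;> positivity
  · simp only [e2 _ z (Fl_sub hz)]
    have : 1 ≤ ∑ μ ∈ F, qt μ z + 2 * ε := by
      refine le_of_tendsto (hsum z (Fl_sub hz)) ((eventually_ge_atTop F).mono fun S hS => ?_)
      have a1 := t2 z (Fl_sub hz) S
      rw [Finset.sum_sub_distrib,
        ← Finset.sum_subset hS (f := fun μ => qt μ z) fun μ _ hμ => if_neg hμ] at a1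
      linarith
    linarith
  · simp only [e2 _ z (Fl_sub hz)]
    exact (Finset.sum_le_sum fun μ _ => t1 μ z).trans
      (sum_le_hasSum F (fun μ _ => h0 μ z) (hsum z (Fl_sub hz)))
  · have hz' := Fl_sub hz
    have e3 : ∀ μ, c (μ * κ⁻¹) (p (act μ z)) = qt (μ * κ⁻¹) (lin (ι κ) z) := fun μ => by
      rw [e1 _ μ z hz']
      congr 2
      simp
    change ∑ μ ∈ S, |c (μ * κ⁻¹) (p (act μ z)) - c μ (p (act μ z))| ≤ _
    simp only [e3, e2 _ z hz']
    have a1 := t2 z hz' S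
    have a2 := t2 _ (lin_mem hz' (ι κ)) (S.map (Equiv.mulRight κ⁻¹).toEmbedding)
    simp only [Finset.sum_map, Equiv.coe_toEmbedding, Equiv.coe_mulRight] at a2
    refine le_trans (Finset.sum_le_sum (g := fun μ => |q (μ * κ⁻¹) (lin (ι κ) z) - q μ z|
      + (q μ z - qt μ z) + (q (μ * κ⁻¹) (lin (ι κ) z) - qt (μ * κ⁻¹) (lin (ι κ) z)))
      fun μ _ => ?_) ?_
    · have b1 := t1 μ z
      have b2 := t1 (μ * κ⁻¹) (lin (ι κ) z)
      have b3 := le_abs_self (q (μ * κ⁻¹) (lin (ι κ) z) - q μ z)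
      have b4 := neg_abs_le (q (μ * κ⁻¹) (lin (ι κ) z) - q μ z)
      rw [abs_le]
      constructor <;> linarith
    · rw [Finset.sum_add_distrib, Finset.sum_add_distrib]
      linarith

/-! ### summability -/

lemma exists_summable : ∃ m : ℕ, Summable fun μ : Γ => (nm (ι μ))⁻¹ ^ m := by
  let L := Submodule.span ℤ (Set.range (Pi.basisFun ℝ (Fin 3 × Fin 3)))
  let e : Γ → L := fun μ => ⟨fun p => (μ p.1 p.2 : ℤ),
    (Module.Basis.mem_span_iff_repr_mem ℤ _ _).2 fun p => ⟨μ p.1 p.2, by simp⟩⟩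
  have he : Function.Injective e := fun a b h => by
    ext i j
    have : ((a i j : ℤ) : ℝ) = (b i j : ℤ) := congrFun (congrArg Subtype.val h) (i, j)
    exact_mod_cast this
  refine ⟨Module.finrank ℤ L + 1,
    ((ZLattice.summable_norm_pow_inv L _ (Nat.lt_succ_self _)).comp_injective he).congr fun μ => ?_⟩
  have : ‖e μ‖ = nm (ι μ) := by
    refine le_antisymm ((pi_norm_le_iff_of_nonneg (nm_pos _).le).2 fun p => abs_le_nm (ι μ) p.1 p.2)
      ((pi_norm_le_iff_of_nonneg (norm_nonneg _)).2 fun i =>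
        (pi_norm_le_iff_of_nonneg (norm_nonneg _)).2 fun j => norm_le_pi_norm (e μ).1 (i, j))
  rw [Function.comp_apply, this]

end Crest.Agent.N111.AmenAux
end

-- ▼ part N111/I/Amen

/-!
# Row 111: `AmenStmt`.  The action of `Γ` on flags is amenable (helper60)
-/

set_option autoImplicit false
set_option linter.unusedSectionVars false

namespace Crest.Agent.N111

namespace AmenAux

open MeasureTheory Topology Filter Matrix

/-- the orthogonal frame of a flag -/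
def fr (z : V × V) : Fin 3 → V := ![z.1, z.2 ⨯₃ z.1, z.2]

/-- the normalised frame -/
noncomputable def fu (z : V × V) (i : Fin 3) : V := nrm (fr z i)

lemma fr_ne {z : V × V} (hz : z ∈ Fl') (i : Fin 3) : fr z i ≠ 0 := by
  fin_cases i
  · exact hz.1
  · intro h
    obtain ⟨s, hs⟩ := exists_smul_of_cross_eq_zero hz.2.1 h
    have h1 := hz.2.2
    rw [hs, smul_dotProduct, smul_eq_mul, mul_eq_zero, dotProduct_self_eq_zero] at h1
    rcases h1 with h1 | h1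
    · exact hz.1 (by rw [hs, h1, zero_smul])
    · exact hz.2.1 h1
  · exact hz.2.1

lemma norm_fu {z : V × V} (hz : z ∈ Fl') (i : Fin 3) : ‖fu z i‖ = 1 := norm_nrm (fr_ne hz i)

lemma one_le_dot {z : V × V} (hz : z ∈ Fl') (i : Fin 3) : 1 ≤ fu z i ⬝ᵥ fu z i := by
  have := norm_sq_le_dot (fu z i)
  rwa [norm_fu hz, one_pow] at this

/-- triangularity -/
lemma tri {z : V × V} (hz : z ∈ Fl') (g : G) {i j : Fin 3} (h : i < j) :
    ac g (fu z i) ⬝ᵥ fu (lin g z) j = 0 := by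
  have : ac g (fr z i) ⬝ᵥ fr (lin g z) j = 0 := by
    fin_cases i <;> fin_cases j <;> simp at h
    · exact dot_cross_self _ _
    · exact (ac_dot_ac_dl g _ _).trans hz.2.2
    · refine (ac_dot_ac_dl g _ _).trans ?_
      rw [dotProduct_comm]
      exact dot_self_cross _ _
  simp only [fu, nrm, ac_smul, smul_dotProduct, dotProduct_smul, this, smul_zero]

lemma orth {z : V × V} (hz : z ∈ Fl') {i j : Fin 3} (h : i ≠ j) : fu z i ⬝ᵥ fu z j = 0 := by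
  rcases lt_or_gt_of_ne h with h | h
  · simpa only [ac_one, lin_one] using tri hz 1 h
  · rw [dotProduct_comm]
    simpa only [ac_one, lin_one] using tri hz 1 h

lemma expand {z : V × V} (hz : z ∈ Fl') (v : V) :
    v = ∑ i, (v ⬝ᵥ fu z i / (fu z i ⬝ᵥ fu z i)) • fu z i := by
  let M : Matrix (Fin 3) (Fin 3) ℝ := Matrix.of (fu z)
  let M' : Matrix (Fin 3) (Fin 3) ℝ := Matrix.of fun k i => fu z i k / (fu z i ⬝ᵥ fu z i)
  have h1 : M * M' = 1 := by
    ext i j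
    have : (M * M') i j = fu z i ⬝ᵥ fu z j / (fu z j ⬝ᵥ fu z j) := by
      simp only [M, M', Matrix.mul_apply, Matrix.of_apply, ← mul_div_assoc, ← Finset.sum_div]
      rfl
    rw [this, Matrix.one_apply]
    split_ifs with h
    · rw [h, div_self (by linarith [one_le_dot hz j])]
    · rw [orth hz h, zero_div]
  have h2 : M' * M = 1 := mul_eq_one_comm.1 h1
  have h3 : v = (v ᵥ* M') ᵥ* M := by rw [vecMul_vecMul, h2, vecMul_one]
  conv_lhs => rw [h3, vecMul_eq_sum]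
  refine Finset.sum_congr rfl fun i _ => ?_
  congr 1
  simp only [M', vecMul, dotProduct, Matrix.of_apply, ← mul_div_assoc, ← Finset.sum_div]

lemma abs_coef_le {z : V × V} (hz : z ∈ Fl') (v : V) (i : Fin 3) :
    |v ⬝ᵥ fu z i / (fu z i ⬝ᵥ fu z i)| ≤ 3 * ‖v‖ := by
  have h1 := one_le_dot hz i
  have h2 := abs_dot_le v (fu z i)
  rw [norm_fu hz, mul_one] at h2
  rw [abs_div, abs_of_pos (a := fu z i ⬝ᵥ fu z i) (by linarith)]
  exact (div_le_self (abs_nonneg _) h1).trans h2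

/-- the transition matrix between the frames is triangular and bounded -/
lemma exists_tau (κ : G) : ∃ C : ℝ, 1 ≤ C ∧ ∀ z ∈ Fl', ∃ τ : Fin 3 → Fin 3 → ℝ,
    (∀ j, ac κ⁻¹ (fu (lin κ z) j) = ∑ i, τ i j • fu z i) ∧ (∀ i j, |τ i j| ≤ C) ∧
    (∀ i j, j < i → τ i j = 0) ∧ ∀ j, 1 ≤ C * |τ j j| := by
  refine ⟨1 + 9 * nm κ + 9 * nm κ⁻¹, by linarith [nm_pos κ, nm_pos κ⁻¹], fun z hz => ?_⟩
  have hz' := lin_mem hz κ
  have h3 : ∀ i j, j < i → ac κ⁻¹ (fu (lin κ z) j) ⬝ᵥ fu z i / (fu z i ⬝ᵥ fu z i) = 0 := by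
    intro i j h
    have := tri hz' κ⁻¹ h
    rw [← lin_mul, inv_mul_cancel, lin_one] at this
    rw [this, zero_div]
  refine ⟨fun i j => ac κ⁻¹ (fu (lin κ z) j) ⬝ᵥ fu z i / (fu z i ⬝ᵥ fu z i), fun j => expand hz _,
    fun i j => ?_, h3, fun j => ?_⟩
  · have h1 := norm_ac_le κ⁻¹ (fu (lin κ z) j)
    rw [norm_fu hz'] at h1
    linarith [abs_coef_le hz (ac κ⁻¹ (fu (lin κ z) j)) i, nm_pos κ]
  · have h1 := congrArg (fun v => ac κ v ⬝ᵥ fu (lin κ z) j) (expand hz (ac κ⁻¹ (fu (lin κ z) j)))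
    simp only [ac_ac_inv, Fin.sum_univ_three, ac_add, ac_smul, add_dotProduct, smul_dotProduct,
      smul_eq_mul] at h1
    rw [← Fin.sum_univ_three fun i => ac κ⁻¹ (fu (lin κ z) j) ⬝ᵥ fu z i / (fu z i ⬝ᵥ fu z i)
      * (ac κ (fu z i) ⬝ᵥ fu (lin κ z) j), Finset.sum_eq_single j] at h1
    · have h2 := one_le_dot hz' j
      have h4 := abs_dot_le (ac κ (fu z j)) (fu (lin κ z) j)
      have h5 := norm_ac_le κ (fu z j)
      rw [norm_fu hz] at h5
      rw [norm_fu hz'] at h4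
      rw [h1] at h2
      refine h2.trans ((le_abs_self _).trans ?_)
      rw [abs_mul, mul_comm]
      exact mul_le_mul_of_nonneg_right (by linarith [nm_pos κ⁻¹]) (abs_nonneg _)
    · intro i _ hi
      rcases lt_or_gt_of_ne hi with h | h
      · rw [tri hz κ h, mul_zero]
      · rw [h3 i j h, zero_mul]
    · simp

/-- the size of `g` seen from the point of the chamber `j` of the flag `z` -/
noncomputable def NN (η : ℝ) (g : G) (z : V × V) (j : Fin 3 → ℤ) : ℝ :=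
  ∑ i, Real.exp (η * j i) * ‖ac g (fu z i)‖

lemma nm_le_NN {η c : ℝ} {z : V × V} (hz : z ∈ Fl') {j : Fin 3 → ℤ} (hc0 : 0 ≤ c)
    (hc : ∀ i, c ≤ Real.exp (η * j i)) (g : G) : c * nm g ≤ 3 * NN η g z j := by
  have h1 : nm g ≤ 3 * ∑ i, ‖ac g (fu z i)‖ := by
    refine nm_le_of_forall fun a => ?_
    conv_lhs => rw [expand hz a]
    simp only [Fin.sum_univ_three, ac_add, ac_smul]
    have h := fun i => mul_le_mul_of_nonneg_right (abs_coef_le hz a i) (norm_nonneg (ac g (fu z i)))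
    refine (norm_add₃_le).trans ?_
    simp only [norm_smul, Real.norm_eq_abs]
    linarith [h 0, h 1, h 2]
  have h2 : c * ∑ i, ‖ac g (fu z i)‖ ≤ NN η g z j := by
    rw [Finset.mul_sum]
    exact Finset.sum_le_sum fun i _ => mul_le_mul_of_nonneg_right (hc i) (norm_nonneg _)
  nlinarith [mul_le_mul_of_nonneg_left h1 hc0]

lemma exists_nm_le_NN (η : ℝ) {z : V × V} (hz : z ∈ Fl') (j : Fin 3 → ℤ) :
    ∃ c > 0, ∀ g, c * nm g ≤ NN η g z j := by
  refine ⟨Real.exp (-∑ i, |η * j i|) / 3, by positivity, fun g => ?_⟩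
  have := nm_le_NN (η := η) hz (j := j) (Real.exp_pos (-∑ i, |η * j i|)).le (fun i =>
    Real.exp_le_exp.2 ((neg_le_neg (Finset.single_le_sum (f := fun i => |η * j i|)
      (fun _ _ => abs_nonneg _) (Finset.mem_univ i))).trans (neg_abs_le _))) g
  linarith

lemma NN_pos (η : ℝ) (g : G) {z : V × V} (hz : z ∈ Fl') (j : Fin 3 → ℤ) : 0 < NN η g z j := by
  obtain ⟨c, hc, h⟩ := exists_nm_le_NN η hz j
  exact (mul_pos hc (nm_pos g)).trans_le (h g)

lemma NN_nonneg (η : ℝ) (g : G) (z : V × V) (j : Fin 3 → ℤ) : 0 ≤ NN η g z j :=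
  Finset.sum_nonneg fun _ _ => by positivity

lemma real_cmp {C δ θ x₀ x₁ x₂ y₀ y₁ y₂ t₀ t₁ t₂ e₀ e₁ e₂ s₀ s₁ s₂ : ℝ} (hC : 1 ≤ C) (hδ : 0 ≤ δ)
    (hδ' : 4 * C ^ 2 * δ ≤ 1) (hθ : 1 ≤ θ) (hx₀ : 0 ≤ x₀) (hx₁ : 0 ≤ x₁) (hx₂ : 0 ≤ x₂)
    (he₀ : 0 ≤ e₀) (he₁ : 0 ≤ e₁) (he₂ : 0 ≤ e₂) (h₀ : y₀ = t₀ * x₀) (h₁ : |y₁ - t₁ * x₁| ≤ C * x₀)
    (h₂ : |y₂ - t₂ * x₂| ≤ C * x₀ + C * x₁) (g₁ : e₁ ≤ δ * e₀) (g₂ : e₂ ≤ δ * e₀) (g₃ : e₂ ≤ δ * e₁)
    (l₀ : 1 ≤ C * t₀) (l₁ : 1 ≤ C * t₁) (ht₂ : 0 ≤ t₂) (a₀ : s₀ ≤ t₀) (a₁ : s₁ ≤ t₁) (a₂ : s₂ ≤ t₂)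
    (b₀ : t₀ ≤ θ * s₀) (b₁ : t₁ ≤ θ * s₁) (b₂ : t₂ ≤ θ * s₂) :
    e₀ * y₀ + e₁ * y₁ + e₂ * y₂
        ≤ θ * (1 + 4 * C ^ 2 * δ) * (e₀ * s₀ * x₀ + e₁ * s₁ * x₁ + e₂ * s₂ * x₂) ∧
      e₀ * s₀ * x₀ + e₁ * s₁ * x₁ + e₂ * s₂ * x₂
        ≤ θ * (1 + 4 * C ^ 2 * δ) * (e₀ * y₀ + e₁ * y₁ + e₂ * y₂) := by
  have hC0 : 0 ≤ C := by linarith
  have ht₀ : 0 ≤ t₀ := by nlinarith
  have ht₁ : 0 ≤ t₁ := by nlinarith
  set u₀ := e₀ * x₀
  set u₁ := e₁ * x₁
  set u₂ := e₂ * x₂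
  have hu₀ : 0 ≤ u₀ := mul_nonneg he₀ hx₀
  have hu₁ : 0 ≤ u₁ := mul_nonneg he₁ hx₁
  have hu₂ : 0 ≤ u₂ := mul_nonneg he₂ hx₂
  set S := t₀ * u₀ + t₁ * u₁ + t₂ * u₂ with hS
  set N := e₀ * s₀ * x₀ + e₁ * s₁ * x₁ + e₂ * s₂ * x₂ with hN
  set Y := e₀ * y₀ + e₁ * y₁ + e₂ * y₂ with hY
  have hN' : N = s₀ * u₀ + s₁ * u₁ + s₂ * u₂ := by simp only [hN, u₀, u₁, u₂]; ring
  have n1 : N ≤ S := by
    rw [hN']
    exact add_le_add_three (by gcongr) (by gcongr) (by gcongr)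
  have n2 : S ≤ θ * N := by
    rw [hN']
    linarith [mul_le_mul_of_nonneg_right b₀ hu₀, mul_le_mul_of_nonneg_right b₁ hu₁,
      mul_le_mul_of_nonneg_right b₂ hu₂]
  have hS0 : 0 ≤ S := by positivity
  have n3 : |Y - S| ≤ 2 * C ^ 2 * δ * S := by
    have e : Y - S = e₁ * (y₁ - t₁ * x₁) + e₂ * (y₂ - t₂ * x₂) := by
      simp only [hY, hS, h₀, u₀, u₁, u₂]; ring
    have p1 : |e₁ * (y₁ - t₁ * x₁)| ≤ δ * e₀ * (C * x₀) := by
      rw [abs_mul, abs_of_nonneg he₁]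
      gcongr
    have p2 : |e₂ * (y₂ - t₂ * x₂)| ≤ δ * e₀ * (C * x₀) + δ * e₁ * (C * x₁) := by
      rw [abs_mul, abs_of_nonneg he₂]
      refine (mul_le_mul_of_nonneg_left h₂ he₂).trans ?_
      rw [mul_add]
      gcongr
    have p3 : u₀ ≤ C * t₀ * u₀ := le_mul_of_one_le_left hu₀ l₀
    have p4 : u₁ ≤ C * t₁ * u₁ := le_mul_of_one_le_left hu₁ l₁
    have p5 : 2 * u₀ + u₁ ≤ 2 * C * S := by
      have : 0 ≤ C * (t₂ * u₂) := by positivity
      have : 0 ≤ C * t₁ * u₁ := by positivity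
      simp only [hS]
      linarith
    calc |Y - S| ≤ δ * C * (2 * u₀ + u₁) := by
          rw [e]
          refine (abs_add_le _ _).trans ((add_le_add p1 p2).trans_eq ?_)
          simp only [u₀, u₁]; ring
      _ ≤ δ * C * (2 * C * S) := by gcongr
      _ = _ := by ring
  obtain ⟨n4, n5⟩ := abs_le.1 n3
  set w := C ^ 2 * δ with hw
  have hw0 : 0 ≤ w := by positivity
  have hw1 : 4 * w ≤ 1 := by rw [hw]; linarith
  have e1 : 4 * C ^ 2 * δ = 4 * w := by rw [hw]; ring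
  have e2 : 2 * C ^ 2 * δ = 2 * w := by rw [hw]; ring
  rw [e2] at n4 n5
  rw [e1]
  clear_value w S N Y
  constructor
  · calc Y ≤ (1 + 4 * w) * S := by nlinarith [mul_nonneg hw0 hS0]
      _ ≤ (1 + 4 * w) * (θ * N) := by gcongr
      _ = _ := by ring
  · have m1 : (1 - 2 * w) * S ≤ Y := by linarith
    have m2 : S ≤ (1 + 4 * w) * Y := by
      calc S ≤ (1 + 4 * w) * ((1 - 2 * w) * S) := by
            nlinarith [mul_nonneg (mul_nonneg hw0 hS0) (sub_nonneg.2 hw1), mul_nonneg hw0 hS0]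
        _ ≤ _ := by gcongr
    calc N ≤ 1 * ((1 + 4 * w) * Y) := by linarith
      _ ≤ θ * ((1 + 4 * w) * Y) := by gcongr; linarith
      _ = _ := by ring

/-- the corner of the cube, deep in the chamber -/
def oo (n : ℕ) : Fin 3 → ℤ := ![4 * n, 2 * n, 0]

/-- comparison of sizes -/
lemma NN_cmp (κ : G) : ∃ C : ℝ, 1 ≤ C ∧ ∀ (η : ℝ) (n : ℕ), 0 < η →
    4 * C ^ 2 * Real.exp (-(η * n)) ≤ 1 → ∀ z ∈ Fl', ∃ σ : Fin 3 → ℤ,
      (∀ i, (|σ i| : ℝ) ≤ Real.log C / η + 1) ∧ ∀ j ∈ cube (oo n) n, ∀ g : G,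
        NN η (g * κ⁻¹) (lin κ z) j
          ≤ Real.exp η * (1 + 4 * C ^ 2 * Real.exp (-(η * n))) * NN η g z (j + σ) ∧
        NN η g z (j + σ)
          ≤ Real.exp η * (1 + 4 * C ^ 2 * Real.exp (-(η * n))) * NN η (g * κ⁻¹) (lin κ z) j := by
  obtain ⟨C, hC, h⟩ := exists_tau κ
  refine ⟨C, hC, fun η n hη hδ z hz => ?_⟩
  obtain ⟨τ, h1, h2, h3, h4⟩ := h z hz
  have hp : ∀ i, 0 < |τ i i| := fun i => by nlinarith [h4 i, abs_nonneg (τ i i)]
  let σ : Fin 3 → ℤ := fun i => ⌊Real.log |τ i i| / η⌋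
  have a : ∀ i, Real.exp (η * σ i) ≤ |τ i i| := fun i => by
    rw [← Real.le_log_iff_exp_le (hp i), ← le_div_iff₀' hη]
    exact Int.floor_le _
  have b : ∀ i, |τ i i| ≤ Real.exp η * Real.exp (η * σ i) := fun i => by
    rw [← Real.exp_add, ← Real.log_le_iff_le_exp (hp i), ← mul_one_add, ← div_le_iff₀' hη, add_comm]
    exact (Int.lt_floor_add_one _).le
  refine ⟨σ, fun i => ?_, fun j hj g => ?_⟩
  · have c1 : Real.log |τ i i| ≤ Real.log C := Real.log_le_log (hp i) (h2 i i)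
    have c2 : -Real.log C ≤ Real.log |τ i i| := by
      have := Real.log_nonneg (h4 i)
      rw [Real.log_mul (by linarith) (hp i).ne'] at this
      linarith
    have c3 := div_le_div_of_nonneg_right c1 hη.le
    have c4 := div_le_div_of_nonneg_right c2 hη.le
    rw [neg_div] at c4
    have c5 := Int.floor_le (Real.log |τ i i| / η)
    have c6 := Int.lt_floor_add_one (Real.log |τ i i| / η)
    rw [abs_le]
    constructor <;> simp only [σ] <;> linarith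
  · have gap : ∀ i k : Fin 3, j k + n ≤ j i →
        Real.exp (η * j k) ≤ Real.exp (-(η * n)) * Real.exp (η * j i) := fun i k hik => by
      rw [← Real.exp_add, Real.exp_le_exp]
      have : (j k : ℝ) + n ≤ j i := by exact_mod_cast hik
      nlinarith
    have m0 := mem_cube.1 hj 0
    have m1 := mem_cube.1 hj 1
    have m2 := mem_cube.1 hj 2
    simp only [oo, Matrix.cons_val_zero, Matrix.cons_val_one, Matrix.cons_val] at m0 m1 m2
    have y : ∀ k, ac (g * κ⁻¹) (fu (lin κ z) k)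
        = τ 0 k • ac g (fu z 0) + τ 1 k • ac g (fu z 1) + τ 2 k • ac g (fu z 2) := fun k => by
      rw [ac_mul, h1, Fin.sum_univ_three, ac_add, ac_add, ac_smul, ac_smul, ac_smul]
    have ns : ∀ i k, ‖τ i k • ac g (fu z i)‖ = |τ i k| * ‖ac g (fu z i)‖ := fun i k =>
      norm_smul _ _
    have nl : ∀ i k, ‖τ i k • ac g (fu z i)‖ ≤ C * ‖ac g (fu z i)‖ := fun i k =>
      (ns i k).trans_le (mul_le_mul_of_nonneg_right (h2 i k) (norm_nonneg _))
    simp only [NN, Fin.sum_univ_three, Pi.add_apply, Int.cast_add, mul_add η, Real.exp_add]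
    refine real_cmp hC (Real.exp_pos _).le hδ (Real.one_le_exp hη.le) (norm_nonneg _)
      (norm_nonneg _) (norm_nonneg _) (Real.exp_pos _).le (Real.exp_pos _).le (Real.exp_pos _).le
      ?_ ?_ ?_ (gap 0 1 (by omega)) (gap 0 2 (by omega)) (gap 1 2 (by omega)) (h4 0) (h4 1)
      (abs_nonneg _) (a 0) (a 1) (a 2) (b 0) (b 1) (b 2)
    · rw [y, h3 1 0 (by decide), h3 2 0 (by decide), zero_smul, zero_smul, add_zero, add_zero, ns]
    · rw [y, h3 2 1 (by decide), zero_smul, add_zero, ← ns]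
      refine (abs_norm_sub_norm_le _ _).trans ?_
      rw [add_sub_cancel_right]
      exact nl 0 1
    · rw [y, ← ns]
      refine (abs_norm_sub_norm_le _ _).trans ?_
      rw [add_sub_cancel_right]
      exact (norm_add_le _ _).trans (add_le_add (nl 0 2) (nl 1 2))

/-- the weights -/
noncomputable def WW (m : ℕ) (η : ℝ) (z : V × V) (j : Fin 3 → ℤ) (μ : Γ) : ℝ :=
  (NN η (ι μ) z j)⁻¹ ^ m

lemma WW_nonneg (m : ℕ) (η : ℝ) (z : V × V) (j : Fin 3 → ℤ) (μ : Γ) : 0 ≤ WW m η z j μ :=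
  pow_nonneg (inv_nonneg.2 (NN_nonneg _ _ _ _)) _

lemma inv_pow_le {a b c : ℝ} (ha : 0 < a) (hb : 0 < b) (h : a ≤ c * b) (m : ℕ) :
    b⁻¹ ^ m ≤ c ^ m * a⁻¹ ^ m := by
  rw [← mul_pow]
  refine pow_le_pow_left₀ (inv_pos.2 hb).le ?_ m
  rw [← div_eq_mul_inv, inv_eq_one_div, div_le_div_iff₀ hb ha]
  linarith

variable {m : ℕ} (hm : Summable fun μ : Γ => (nm (ι μ))⁻¹ ^ m)
include hm

lemma summable_WW (η : ℝ) {z : V × V} (hz : z ∈ Fl') (j : Fin 3 → ℤ) : Summable (WW m η z j) := by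
  obtain ⟨c, hc, h⟩ := exists_nm_le_NN η hz j
  refine (hm.mul_left (c⁻¹ ^ m)).of_nonneg_of_le (WW_nonneg _ _ _ _) fun μ =>
    inv_pow_le (nm_pos _) (NN_pos _ _ hz _) ?_ m
  rw [← div_eq_inv_mul, le_div_iff₀' hc]
  exact h _

lemma tsum_WW_pos (η : ℝ) {z : V × V} (hz : z ∈ Fl') (j : Fin 3 → ℤ) : 0 < ∑' μ, WW m η z j μ :=
  (summable_WW hm η hz j).tsum_pos (WW_nonneg _ _ _ _) 1
    (pow_pos (inv_pos.2 (NN_pos _ _ hz _)) _)

omit hm in
/-- the averaged probability vectors -/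
noncomputable def qv (m : ℕ) (η : ℝ) (n : ℕ) (μ : Γ) (z : V × V) : ℝ :=
  (∑ j ∈ cube (oo n) n, pr (WW m η z j) μ) / n ^ 3

lemma exists_AmD {η : ℝ} (hη : 0 ≤ η) {n : ℕ} (hn : 0 < n) {ε : ℝ} (hε : 0 < ε) (hε' : ε ≤ 1 / 4) :
    ∃ D : AmD, ∀ κ : Γ, ∀ z ∈ Fl, ∀ S : Finset Γ,
      ∑ μ ∈ S, |D.c (μ * κ⁻¹) (D.p (act μ z)) - D.c μ (D.p (act μ z))|
        ≤ ∑ μ ∈ S, |qv m η n (μ * κ⁻¹) (lin (ι κ) z) - qv m η n μ z| + 4 * ε := by
  have hn' : (0 : ℝ) < n ^ 3 := by positivity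
  have avg : ∀ (f : (Fin 3 → ℤ) → ℝ) (B : ℝ), (∀ j ∈ cube (oo n) n, f j ≤ B) →
      (∑ j ∈ cube (oo n) n, f j) / n ^ 3 ≤ B := fun f B h => by
    rw [div_le_iff₀' hn']
    refine (Finset.sum_le_sum h).trans_eq ?_
    rw [Finset.sum_const, card_cube, nsmul_eq_mul, Nat.cast_pow]
  refine round (qv m η n) (fun μ => ?_) (fun μ s t a b hs ht => ?_) (fun μ z => ?_) (fun μ z => ?_)
    (fun z hz => ?_) (hm.mul_left ((27 * Real.exp (η * (5 * n))) ^ m)) (fun z hz μ => ?_) hε hε'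
  · have h1 : ∀ i, Measurable fun z => fu z i := fun i => by
      refine measurable_nrm.comp ?_
      fin_cases i
      · exact measurable_fst
      · refine Continuous.measurable (continuous_pi fun k => ?_)
        fin_cases k <;> simp [fr, cross_apply] <;> fun_prop
      · exact measurable_snd
    have h2 : ∀ j ν, Measurable fun z => WW m η z j ν := fun j ν =>
      (Finset.measurable_sum _ fun i _ =>
        ((measurable_ac _).comp (h1 i)).norm.const_mul _).inv.pow_const _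
    exact (Finset.measurable_sum _ fun j _ => (h2 j μ).div (Measurable.tsum (h2 j))).div_const _
  · have h1 : ∀ (g : G) (s : ℝ) (v : V), s ≠ 0 → ‖ac g (nrm (s • v))‖ = ‖ac g (nrm v)‖ := by
      intro g s v hs
      rcases hs.lt_or_gt with h | h
      · rw [← neg_neg s, neg_smul, nrm_neg, ac_neg, norm_neg, nrm_smul (neg_pos.2 h)]
      · rw [nrm_smul h]
    have h2 : ∀ g i, ‖ac g (fu (s • a, t • b) i)‖ = ‖ac g (fu (a, b) i)‖ := fun g i => by
      fin_cases i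
      · exact h1 g s a hs
      · refine Eq.trans ?_ (h1 g (t * s) (b ⨯₃ a) (mul_ne_zero ht hs))
        simp [fu, fr, smul_smul, mul_comm]
      · exact h1 g t b ht
    unfold qv WW NN
    simp only [h2]
  · exact div_nonneg (Finset.sum_nonneg fun j _ => pr_nonneg (WW_nonneg _ _ _ _) μ) hn'.le
  · exact avg _ _ fun j _ => by simpa using sum_pr_le (WW_nonneg m η z j) {μ}
  · have := (hasSum_sum fun j (_ : j ∈ cube (oo n) n) =>
      hasSum_pr (summable_WW hm η hz j) (tsum_WW_pos hm η hz j)).div_const ((n : ℝ) ^ 3)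
    rwa [Finset.sum_const, card_cube, nsmul_eq_mul, mul_one, Nat.cast_pow, div_self hn'.ne'] at this
  · refine avg _ _ fun j hj => ?_
    have hj' : ∀ i, 0 ≤ j i ∧ j i ≤ 5 * n := fun i => by
      have := mem_cube.1 hj i
      fin_cases i <;> simp [oo] at this ⊢ <;> omega
    have a1 : nm (ι μ) ≤ 3 * NN η (ι μ) z j := by
      simpa using nm_le_NN (η := η) hz zero_le_one
        (fun i => Real.one_le_exp (mul_nonneg hη (by exact_mod_cast (hj' i).1))) (ι μ)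
    have a2 : NN η (ι 1) z j ≤ 9 * Real.exp (η * (5 * n)) * 1 := by
      have : ∀ i, Real.exp (η * j i) * ‖ac (ι 1) (fu z i)‖ ≤ Real.exp (η * (5 * n)) := fun i => by
        rw [map_one, ac_one, norm_fu hz, mul_one, Real.exp_le_exp]
        exact mul_le_mul_of_nonneg_left (by exact_mod_cast (hj' i).2) hη
      rw [NN, Fin.sum_univ_three]
      linarith [this 0, this 1, this 2, Real.exp_pos (η * (5 * n))]
    have a3 := inv_pow_le (nm_pos _) (NN_pos _ _ hz _) a1 m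
    have a4 := inv_pow_le (NN_pos _ _ hz _) one_pos a2 m
    rw [inv_one, one_pow] at a4
    have a5 : WW m η z j 1 ≤ ∑' ν, WW m η z j ν :=
      (summable_WW hm η hz j).le_tsum 1 fun _ _ => WW_nonneg _ _ _ _ _
    rw [pr, div_le_iff₀ (tsum_WW_pos hm η hz j)]
    have a6 : 0 ≤ (nm (ι μ))⁻¹ ^ m := pow_nonneg (inv_pos.2 (nm_pos _)).le _
    calc WW m η z j μ ≤ 3 ^ m * (nm (ι μ))⁻¹ ^ m * 1 := by rw [mul_one]; exact a3
      _ ≤ 3 ^ m * (nm (ι μ))⁻¹ ^ m * ((9 * Real.exp (η * (5 * n))) ^ m * ∑' ν, WW m η z j ν) := by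
        gcongr
        exact a4.trans (mul_le_mul_of_nonneg_left a5 (by positivity))
      _ = _ := by
        rw [show (27 : ℝ) * Real.exp (η * (5 * n)) = 3 * (9 * Real.exp (η * (5 * n))) by ring,
          mul_pow (3 : ℝ)]
        ring

lemma qv_close (κ : Γ) : ∃ C : ℝ, 1 ≤ C ∧ ∀ (η : ℝ) (n D : ℕ), 0 < η → 0 < n →
    4 * C ^ 2 * Real.exp (-(η * n)) ≤ 1 → Real.log C / η + 1 ≤ D → 2 * D ≤ n →
    ∀ z ∈ Fl', ∀ S : Finset Γ, ∑ μ ∈ S, |qv m η n (μ * κ⁻¹) (lin (ι κ) z) - qv m η n μ z|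
      ≤ 2 * (((Real.exp η * (1 + 4 * C ^ 2 * Real.exp (-(η * n)))) ^ m) ^ 2 - 1) + 12 * D / n := by
  obtain ⟨C, hC, h⟩ := NN_cmp (ι κ)
  refine ⟨C, hC, fun η n D hη hn hδ hD hDn z hz S => ?_⟩
  obtain ⟨σ, hσ, h⟩ := h η n hη hδ z hz
  have hz' := lin_mem hz (ι κ)
  have hn' : (0 : ℝ) < n := by exact_mod_cast hn
  have key := cube_close (f := fun j => pr (WW m η z j))
    (f' := fun j μ => pr (WW m η (lin (ι κ) z) j) (μ * κ⁻¹))
    (fun j μ => pr_nonneg (WW_nonneg _ _ _ _) μ) (S := S) (fun j => sum_pr_le (WW_nonneg _ _ _ _) S)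
    (oo n) σ hDn (fun i => by exact_mod_cast (hσ i).trans hD)
    (ε := 2 * (((Real.exp η * (1 + 4 * C ^ 2 * Real.exp (-(η * n)))) ^ m) ^ 2 - 1)) fun j hj => by
      have e : ∀ μ, pr (WW m η (lin (ι κ) z) j) (μ * κ⁻¹)
          = pr (fun ν => WW m η (lin (ι κ) z) j (ν * κ⁻¹)) μ := fun μ => by
        rw [pr, pr, ← (Equiv.mulRight κ⁻¹).tsum_eq]
        rfl
      simp only [e]
      have s1 : Summable fun ν => WW m η (lin (ι κ) z) j (ν * κ⁻¹) :=
        (Equiv.mulRight κ⁻¹).summable_iff.2 (summable_WW hm η hz' j)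
      have s2 : 0 < ∑' ν, WW m η (lin (ι κ) z) j (ν * κ⁻¹) :=
        (tsum_WW_pos hm η hz' j).trans_eq ((Equiv.mulRight κ⁻¹).tsum_eq _).symm
      refine pr_close (WW_nonneg _ _ _ _) (fun _ => WW_nonneg _ _ _ _ _) (summable_WW hm η hz _)
        s1 (tsum_WW_pos hm η hz _) s2
        (one_le_pow₀ (one_le_mul_of_one_le_of_one_le (Real.one_le_exp hη.le)
          (le_add_of_nonneg_right (by positivity)))) (fun μ => ?_) (fun μ => ?_) S
      · simp only [WW, map_mul, map_inv]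
        exact inv_pow_le (NN_pos _ _ hz _) (NN_pos _ _ hz' _) (h j hj (ι μ)).2 m
      · simp only [WW, map_mul, map_inv]
        exact inv_pow_le (NN_pos _ _ hz' _) (NN_pos _ _ hz _) (h j hj (ι μ)).1 m
  simp only [qv, ← sub_div, abs_div, abs_of_pos (pow_pos hn' 3), ← Finset.sum_div]
  rw [div_le_iff₀' (pow_pos hn' 3)]
  refine key.trans_eq ?_
  field_simp

omit hm in
theorem am : AmStmt := by
  obtain ⟨m, hm⟩ := exists_summable
  choose D hD using fun k : ℕ => exists_AmD hm (η := 1 / ((k : ℝ) + 1)) (by positivity)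
    (n := (k + 1) ^ 2) (by positivity) (ε := 1 / ((k : ℝ) + 1) / 4) (by positivity)
    (div_le_div_of_nonneg_right (by rw [div_le_one (by positivity)]; simp) (by norm_num))
  refine ⟨D, fun κ ε hε => ?_⟩
  obtain ⟨C, hC, h⟩ := qv_close hm κ
  obtain ⟨A, hA⟩ := exists_nat_ge (Real.log C + 1)
  have t1 : Tendsto (fun k : ℕ => 1 / ((k : ℝ) + 1)) atTop (𝓝 0) :=
    tendsto_one_div_add_atTop_nhds_zero_nat
  have t2 : Tendsto (fun k : ℕ => Real.exp (-((k : ℝ) + 1))) atTop (𝓝 0) :=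
    Real.tendsto_exp_neg_atTop_nhds_zero.comp
      (tendsto_atTop_add_const_right _ 1 tendsto_natCast_atTop_atTop)
  have t3 : Tendsto (fun k : ℕ => 4 * C ^ 2 * Real.exp (-((k : ℝ) + 1))) atTop (𝓝 0) := by
    simpa using t2.const_mul (4 * C ^ 2)
  have t4 : Tendsto (fun k : ℕ => 2 * (((Real.exp (1 / ((k : ℝ) + 1))
      * (1 + 4 * C ^ 2 * Real.exp (-((k : ℝ) + 1)))) ^ m) ^ 2 - 1) + 12 * A * (1 / ((k : ℝ) + 1))
      + 1 / ((k : ℝ) + 1)) atTop (𝓝 0) := by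
    have := ((((((((Real.continuous_exp.tendsto 0).comp t1).mul (t3.const_add 1)).pow m).pow
      2).sub_const 1).const_mul 2).add (t1.const_mul (12 * (A : ℝ)))).add t1
    simpa using this
  filter_upwards [t3.eventually_le_const one_pos, t4.eventually_le_const hε,
    eventually_ge_atTop (2 * A)] with k h3 h4 hk z hz S
  have hk0 : (0 : ℝ) < k + 1 := by positivity
  have e : 1 / ((k : ℝ) + 1) * ((k + 1) ^ 2 : ℕ) = k + 1 := by
    push_cast
    field_simp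
  have a := h (1 / ((k : ℝ) + 1)) ((k + 1) ^ 2) (A * (k + 1)) (by positivity) (by positivity)
    (by rwa [e]) (by
      rw [div_div_eq_mul_div, div_one]
      push_cast
      nlinarith [Real.log_nonneg hC, (Nat.cast_nonneg k : (0 : ℝ) ≤ k)])
    (by nlinarith) z (Fl_sub hz) S
  rw [e] at a
  have e2 : 12 * ((A * (k + 1) : ℕ) : ℝ) / ((k + 1) ^ 2 : ℕ) = 12 * A * (1 / ((k : ℝ) + 1)) := by
    push_cast
    field_simp
  rw [e2] at a
  linarith [hD k κ z hz S]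

end AmenAux

theorem amen : AmenStmt := AmenAux.amen_of AmenAux.am

end Crest.Agent.N111
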